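import Vale.Agent.P047.Junta

namespace Vale.Agent.Results.P047.ConicalJuntaSqrt

/-- A square-root bound on the sum of the linear Fourier coefficients for nonnegative
combinations of terms of width at most `w`. -/
theorem result : ∀ (n m w : ℕ) (c : Fin m → ℝ), (∀ j, 0 ≤ c j) →
    ∀ T : Fin m → Fin n → Option Bool,
    (∀ j, (Finset.univ.filter fun i => T j i ≠ none).card ≤ w) →
    ∀ f : (Fin n → Bool) → ℝ, (∀ x, f x = 1 ∨ f x = -1) →
    (∀ x, 1 + f x = ∑ j, c j * (if ∀ i, T j i = none ∨ T j i = some (x i) then 1 else 0)) →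
    ∑ i, |(∑ x, f x * (if x i then 1 else -1)) / 2 ^ n| ≤ 2 * Real.sqrt w := by
  intro n m w c hc T hT f hf hrep
  refine Vale.Agent.P047.linear_sum_le c hc T hT f (fun x => ?_) (fun x => ?_)
  · rcases hf x with h | h <;> rw [h] <;> norm_num
  · rw [hrep x]
    refine Finset.sum_congr rfl fun j _ => ?_
    congr 1
    unfold Vale.Agent.P047.ind
    split_ifs with h
    · refine (Finset.prod_eq_one fun i _ => ?_).symm
      rcases h i with h | h <;> rw [h] <;> simp [Vale.Agent.P047.lit]
    · push Not at h
      obtain ⟨i, h1, h2⟩ := h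
      refine (Finset.prod_eq_zero (Finset.mem_univ i) ?_).symm
      rcases hi : T j i with _ | a
      · exact absurd hi h1
      · have : x i ≠ a := fun e => h2 (by rw [hi, e])
        simp [Vale.Agent.P047.lit, this]

end Vale.Agent.Results.P047.ConicalJuntaSqrt
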