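import Vale.Agent.P047D.Assemble

namespace Vale.Agent.Results.P047.SqrtBoundFails

/-- The Gopalan-Servedio conjecture is false, with any constant. -/
theorem result : ∀ C : ℝ, ∃ n d : ℕ, 1 ≤ d ∧ ∃ f : (Fin n → Bool) → ℝ,
    (∀ x, f x = 1 ∨ f x = -1) ∧
    (∀ S : Finset (Fin n), d < S.card →
      (∑ x, f x * ∏ i ∈ S, (if x i then 1 else -1)) / 2 ^ n = 0) ∧
    C * Real.sqrt d < ∑ i, (∑ x, f x * (if x i then 1 else -1)) / 2 ^ n :=
  Vale.Agent.P047D.sqrt_bound_fails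

end Vale.Agent.Results.P047.SqrtBoundFails
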